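import Mathlib

/-!
The blocks of the proof of Uchida's conjecture for totally real fields: notions.
-/

namespace Vale.Agent.P024.Q1

open Subgroup

/-- The conjugate of a character of a normal subgroup. -/
def cj {H A : Type*} [Group H] [CommGroup A] (W : Subgroup H) [hW : W.Normal] (s : H) :
    (W →* A) →* (W →* A) where
  toFun ψ := ψ.comp (MulAut.conjNormal (s⁻¹)).toMonoidHom
  map_one' := by ext; simp
  map_mul' a b := by ext; simp

theorem cj_apply {H A : Type*} [Group H] [CommGroup A] (W : Subgroup H) [hW : W.Normal] (s : H)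
    (ψ : W →* A) (h : W) :
    cj W s ψ h = ψ ⟨s⁻¹ * h * s, by simpa using hW.conj_mem h h.2 s⁻¹⟩ := by
  have : (MulAut.conjNormal (s⁻¹)) h = (⟨s⁻¹ * h * s, by simpa using hW.conj_mem h h.2 s⁻¹⟩ : W) := by
    ext
    simp
  change ψ ((MulAut.conjNormal (s⁻¹)) h) = _
  rw [this]

theorem cj_mul {H A : Type*} [Group H] [CommGroup A] (W : Subgroup H) [hW : W.Normal] (s t : H)
    (ψ : W →* A) : cj W (s * t) ψ = cj W s (cj W t ψ) := by
  ext h
  rw [cj_apply, cj_apply, cj_apply]
  congr 1
  ext
  simp [mul_assoc]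

theorem cj_one {H A : Type*} [Group H] [CommGroup A] (W : Subgroup H) [hW : W.Normal]
    (ψ : W →* A) : cj W 1 ψ = ψ := by
  ext h
  rw [cj_apply]
  congr 1
  ext
  simp

theorem cj_of_mem {H A : Type*} [Group H] [CommGroup A] (W : Subgroup H) [hW : W.Normal] (s : H)
    (hs : s ∈ W) (ψ : W →* A) : cj W s ψ = ψ := by
  ext h
  rw [cj_apply]
  have : (⟨s⁻¹ * h * s, by simpa using hW.conj_mem h h.2 s⁻¹⟩ : W) =
    ⟨s, hs⟩⁻¹ * h * ⟨s, hs⟩ := by ext; simp
  rw [this, map_mul, map_mul, map_inv, mul_comm, mul_inv_cancel_left]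

/-- The action of the quotient group on the characters of a normal subgroup. -/
def act {H A : Type*} [Group H] [CommGroup A] (W : Subgroup H) [hW : W.Normal] :
    H ⧸ W →* Monoid.End (W →* A) :=
  QuotientGroup.lift W
    { toFun := fun s => cj W s
      map_one' := by ext ψ : 1; exact cj_one W ψ
      map_mul' := fun s t => by ext ψ : 1; exact cj_mul W s t ψ }
    (fun s hs => by ext ψ : 1; exact cj_of_mem W s hs ψ)

@[simp]
theorem act_mk {H A : Type*} [Group H] [CommGroup A] (W : Subgroup H) [hW : W.Normal] (s : H)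
    (ψ : W →* A) : act W (s : H ⧸ W) ψ = cj W s ψ := rfl

/-- The representation of the quotient group on the characters of a normal subgroup. -/
def rep (A : Type*) [CommGroup A] {H : Type*} [Group H] (W : Subgroup H) [hW : W.Normal] :
    Representation ℤ (H ⧸ W) (Additive (W →* A)) where
  toFun g := (MonoidHom.toAdditive (act W g)).toIntLinearMap
  map_one' := by
    ext ψ : 1
    exact congrArg Additive.ofMul (congrArg (fun e : Monoid.End (W →* A) => e ψ.toMul)
      (map_one (act W)))
  map_mul' g h := by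
    ext ψ : 1
    exact congrArg Additive.ofMul (congrArg (fun e : Monoid.End (W →* A) => e ψ.toMul)
      (map_mul (act W) g h))

/-- The action of an element of the group ring: `∏_g (g ψ)^{y_g}`, where
`(g ψ)(h) = ψ(g⁻¹ h g)`. -/
noncomputable def ract {H A : Type*} [Group H] [CommGroup A] (W : Subgroup H) [hW : W.Normal]
    (y : MonoidAlgebra ℤ (H ⧸ W)) (ψ : W →* A) : W →* A :=
  ((rep A W).asAlgebraHom y (Additive.ofMul ψ)).toMul

section

variable {H A : Type*} [Group H] [CommGroup A] (W : Subgroup H) [hW : W.Normal]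

theorem ract_mul (y y' : MonoidAlgebra ℤ (H ⧸ W)) (ψ : W →* A) :
    ract W (y * y') ψ = ract W y (ract W y' ψ) := by
  rw [ract, map_mul]
  rfl

theorem ract_add (y y' : MonoidAlgebra ℤ (H ⧸ W)) (ψ : W →* A) :
    ract W (y + y') ψ = ract W y ψ * ract W y' ψ := by
  rw [ract, map_add]
  rfl

theorem ract_sub (y y' : MonoidAlgebra ℤ (H ⧸ W)) (ψ : W →* A) :
    ract W (y - y') ψ = ract W y ψ / ract W y' ψ := by
  rw [ract, map_sub]
  rfl

theorem ract_one (ψ : W →* A) : ract W (1 : MonoidAlgebra ℤ (H ⧸ W)) ψ = ψ := by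
  rw [ract, map_one]
  rfl

theorem ract_of (s : H) (ψ : W →* A) :
    ract W (MonoidAlgebra.of ℤ (H ⧸ W) (s : H ⧸ W)) ψ = cj W s ψ := by
  rw [ract, Representation.asAlgebraHom_of]
  rfl

theorem ract_sum {ι : Type*} (t : Finset ι) (y : ι → MonoidAlgebra ℤ (H ⧸ W)) (ψ : W →* A) :
    ract W (∑ i ∈ t, y i) ψ = ∏ i ∈ t, ract W (y i) ψ := by
  classical
  induction t using Finset.induction_on with
  | empty =>
    rw [Finset.sum_empty, Finset.prod_empty, ract, map_zero]
    rfl
  | insert a t ha ih => rw [Finset.sum_insert ha, Finset.prod_insert ha, ract_add, ih]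

end

end Vale.Agent.P024.Q1
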