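import Vale.Agent.P024.Bdl.B2
import Vale.Agent.P024.H644.K12
import Vale.Agent.P024.Q1.Defs

/-!
The blocks of the proof of Uchida's conjecture for totally real fields.
-/

namespace Vale.Agent.P024.Q1

open scoped NumberField Topology
open IsDedekindDomain NumberField Filter

/-- (1) [EXT] extension of a homomorphism to a larger group. -/
def PropExt.{u, v} : Prop := ∀ (C : Type u) [Field C] [CharZero C] [IsAlgClosed C]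
  [Algebra.IsAlgebraic ℚ C] (E : Type v) [Field E] [CharZero E] [Algebra.IsAlgebraic ℚ E],
  SolvablyClosed E →
  ∀ (F : IntermediateField ℚ E) [FiniteDimensional ℚ F] [IsGalois F E]
  (U : Subgroup (C ≃ₐ[ℚ] C)), IsOpen (U : Set (C ≃ₐ[ℚ] C)) → ∀ (α : U →* (E ≃ₐ[ℚ] E)),
  Continuous α → α.range = F.fixingSubgroup →
  ∀ (M : Subgroup (C ≃ₐ[ℚ] C)) (hM : M.Normal) (hMU : M ≤ U), IsOpen (M : Set (C ≃ₐ[ℚ] C)) →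
  ∀ φ : C ≃ₐ[ℚ] C, φ ∉ U →
  (∀ (y : C ≃ₐ[ℚ] C) (hy : y ∈ M), α ⟨y, hMU hy⟩ = 1 →
    α ⟨φ * y * φ⁻¹, hMU (hM.conj_mem y hy φ)⟩ = 1) →
  ∃ (U' : Subgroup (C ≃ₐ[ℚ] C)) (hUU' : U < U') (β : U' →* (E ≃ₐ[ℚ] E))
    (F' : IntermediateField ℚ E), Continuous β ∧ IsGalois F' E ∧ F' ≤ F ∧
    β.range = F'.fixingSubgroup ∧ ∀ g : U, β ⟨g, hUU'.le g.2⟩ = α g

/-- (2) [COMM] nontrivial normal subgroups do not commute. -/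
def PropComm.{u, v} : Prop := ∀ (K : Type u) (E : Type v) [Field K] [NumberField K] [Field E]
  [Algebra K E] [IsGalois K E], SolvablyClosed E → ∀ (A B : Subgroup (E ≃ₐ[K] E)), A.Normal →
  B.Normal → A ≠ ⊥ → B ≠ ⊥ → ∃ a ∈ A, ∃ b ∈ B, a * b ≠ b * a

/-- (3) [RANK] a nontrivial subgroup which is normalised by an open subgroup has large images. -/
def PropRank.{u, v} : Prop := ∀ (F : Type u) (E : Type v) [Field F] [NumberField F] [Field E]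
  [Algebra F E] [IsGalois F E], SolvablyClosed E → ∀ (P K : Subgroup (E ≃ₐ[F] E)),
  IsOpen (K : Set (E ≃ₐ[F] E)) → (∀ g ∈ K, ∀ a ∈ P, g * a * g⁻¹ ∈ P) → P ≠ ⊥ →
  ∃ W : Subgroup (E ≃ₐ[F] E), W.Normal ∧ IsOpen (W : Set (E ≃ₐ[F] E)) ∧
    ∀ (W' : Subgroup (E ≃ₐ[F] E)) [W'.Normal], IsOpen (W' : Set (E ≃ₐ[F] E)) → W' ≤ W →
    ∀ z : (E ≃ₐ[F] E) ⧸ W', 4 ≤ (Subgroup.zpowers z).relIndex (P.map (QuotientGroup.mk' W'))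

/-- The element `(g - 1) N_z (f - 1) h` of the group ring. -/
noncomputable def yel {G : Type*} [Group G] (g z f h : G) : MonoidAlgebra ℤ G :=
  (MonoidAlgebra.of ℤ G g - 1) * (∑ j ∈ Finset.range (orderOf z), MonoidAlgebra.of ℤ G (z ^ j)) *
    (MonoidAlgebra.of ℤ G f - 1) * MonoidAlgebra.of ℤ G h

/-- (4) [GR] a lemma about finite groups. -/
def PropGR.{u} : Prop := ∀ (G : Type u) [Group G] [Finite G] (P : Subgroup G) (z f : G),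
  f ∉ Subgroup.zpowers z → 4 ≤ (Subgroup.zpowers z).relIndex P →
  (∃ g ∈ P, yel g z f 1 ≠ 0) ∧
  ∀ c : G, 4 ≤ (Subgroup.zpowers z).relIndex (Subgroup.normalClosure {c}) →
    ∃ g ∈ P, ∃ h : G, yel g z f h * (1 - MonoidAlgebra.of ℤ G c) ≠ 0

/-- (5) [T3] characters of an open normal subgroup which are not killed by an element of the group
ring. -/
def PropT3.{u, v} : Prop := ∀ (F : Type u) (E : Type v) [Field F] [NumberField F] [Field E]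
  [Algebra F E] [IsGalois F E], SolvablyClosed E → ∀ (W : Subgroup (E ≃ₐ[F] E)) [W.Normal],
  IsOpen (W : Set (E ≃ₐ[F] E)) → ∀ (y : MonoidAlgebra ℤ ((E ≃ₐ[F] E) ⧸ W)) (τ : E →+* ℂ),
  ((∃ c : E ≃ₐ[F] E, (∀ x, τ (c x) = starRingEnd ℂ (τ x)) ∧
      y * (1 - MonoidAlgebra.of ℤ ((E ≃ₐ[F] E) ⧸ W) (c : (E ≃ₐ[F] E) ⧸ W)) ≠ 0) ∨
    ((∃ x : F, starRingEnd ℂ (τ (algebraMap F E x)) ≠ τ (algebraMap F E x)) ∧
      ∃ g h : (E ≃ₐ[F] E) ⧸ W, y.coeff g ≠ y.coeff h)) →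
  ∃ B : Set ℕ, B.Finite ∧ ∀ (p : ℕ) [Fact p.Prime], p ∉ B →
    ∃ ψ : W →* ℤ_[p]ˣ, Continuous ψ ∧ ∀ m : ℕ, 0 < m → ract W y ψ ^ m ≠ 1

/-- (6) [SPLIT1] a `ℤ_p`-extension in which infinitely many primes of degree one split. -/
def PropSplit1.{u} : Prop := ∀ (D : Type u) [Field D] [NumberField D] (p : ℕ) [Fact p.Prime],
  p ≠ 2 → ∀ ψ : (AlgebraicClosure D ≃ₐ[D] AlgebraicClosure D) →* ℤ_[p]ˣ, Continuous ψ →
  {v : HeightOneSpectrum (𝓞 D) | (Ideal.absNorm v.asIdeal).Prime ∧ TR.Kills ψ v}.Infinite →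
  ∃ m : ℕ, 0 < m ∧ ∀ g, ψ g ^ m = 1

/-- `φ` is a Frobenius of `O` over the rationals, and the residue characteristic is `q`. -/
def FrobQ {C : Type*} [Field C] [CharZero C] (O : ValuationSubring C) (q : ℕ)
    (φ : C ≃ₐ[ℚ] C) : Prop :=
  O ≠ ⊤ ∧ q.Prime ∧ (q : C) ∈ O.nonunits ∧ Stab O φ ∧ ActsPow O φ q

/-- (7) [CORE] -/
def PropCore.{u} : Prop := ∀ (C : Type u) [Field C] [CharZero C] [IsAlgClosed C]
  [Algebra.IsAlgebraic ℚ C] (M : Subgroup (C ≃ₐ[ℚ] C)) (hM : M.Normal),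
  IsOpen (M : Set (C ≃ₐ[ℚ] C)) → ∀ (p : ℕ) [Fact p.Prime], p ≠ 2 → ∀ (Ψ : M →* ℤ_[p]ˣ),
  Continuous Ψ → ∀ (φ : C ≃ₐ[ℚ] C),
  {q : ℕ | ∃ (O : ValuationSubring C) (φ' : C ≃ₐ[ℚ] C), FrobQ O q φ' ∧ φ⁻¹ * φ' ∈ M ∧
    ∀ (s : C ≃ₐ[ℚ] C) (hs : s ∈ M), Stab O s → Ψ ⟨s, hs⟩ = 1}.Infinite →
  ∀ k : ℕ, φ ^ k ∈ M → ∃ m : ℕ, 0 < m ∧ ∀ (h : C ≃ₐ[ℚ] C) (hh : h ∈ M),
    (∏ i ∈ Finset.range k, Ψ ⟨φ ^ i * h * (φ ^ i)⁻¹, hM.conj_mem h hh (φ ^ i)⟩) ^ m = 1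

section

variable {C : Type*} [Field C] [CharZero C] {F E : Type*} [Field F] [Field E] [Algebra F E]

/-- The image of the elements `h` of `M` such that `α` is trivial on `φ^i h φ^{-i}` for
`0 < i < d`. -/
def PP {U : Subgroup (C ≃ₐ[ℚ] C)} (α : U →* (E ≃ₐ[F] E)) (M : Subgroup (C ≃ₐ[ℚ] C))
    (hM : M.Normal) (hMU : M ≤ U) (φ : C ≃ₐ[ℚ] C) (d : ℕ) : Subgroup (E ≃ₐ[F] E) where
  carrier := {a | ∃ (h : C ≃ₐ[ℚ] C) (hh : h ∈ M), α ⟨h, hMU hh⟩ = a ∧ ∀ i, 0 < i → i < d →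
    α ⟨φ ^ i * h * (φ ^ i)⁻¹, hMU (hM.conj_mem h hh (φ ^ i))⟩ = 1}
  one_mem' := ⟨1, M.one_mem, by
    have : (⟨1, hMU M.one_mem⟩ : U) = 1 := rfl
    rw [this, map_one], fun i _ _ => by
    have : (⟨φ ^ i * 1 * (φ ^ i)⁻¹, hMU (hM.conj_mem 1 M.one_mem (φ ^ i))⟩ : U) = 1 := by
      ext1
      simp
    rw [this, map_one]⟩
  mul_mem' := by
    rintro a b ⟨h, hh, rfl, h'⟩ ⟨k, hk, rfl, k'⟩
    refine ⟨h * k, M.mul_mem hh hk, ?_, fun i hi hid => ?_⟩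
    · rw [← map_mul]
      rfl
    · rw [← mul_one (1 : E ≃ₐ[F] E)]
      nth_rw 1 [← h' i hi hid]
      rw [← k' i hi hid, ← map_mul]
      congr 1
      ext1
      simp [mul_assoc]
  inv_mem' := by
    rintro a ⟨h, hh, rfl, h'⟩
    refine ⟨h⁻¹, M.inv_mem hh, ?_, fun i hi hid => ?_⟩
    · rw [← map_inv]
      rfl
    · have h1 : (⟨φ ^ i * h⁻¹ * (φ ^ i)⁻¹, hMU (hM.conj_mem _ (M.inv_mem hh) (φ ^ i))⟩ : U) =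
          ⟨φ ^ i * h * (φ ^ i)⁻¹, hMU (hM.conj_mem h hh (φ ^ i))⟩⁻¹ := by
        ext1
        simp [mul_assoc]
      rw [h1, map_inv, h' i hi hid, inv_one]

/-- `V` is attached to `O`: both do not lie above `p`, `α` maps the decomposition group of `O` to
that of `V`, and respects the cyclotomic characters there. -/
def Att {U : Subgroup (C ≃ₐ[ℚ] C)} (α : U →* (E ≃ₐ[F] E)) (p : ℕ) [Fact p.Prime]
    (O : ValuationSubring C) (V : ValuationSubring E) : Prop :=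
  O ≠ ⊤ ∧ V ≠ ⊤ ∧ (p : C) ∉ O.nonunits ∧ (p : E) ∉ V.nonunits ∧
    ∀ s : U, Stab O (s : C ≃ₐ[ℚ] C) → Stab V (α s) ∧
      chi F E p (α s) = chi ℚ C p (s : C ≃ₐ[ℚ] C)

end

/-- (8) [KILL] `M` is the core of `U`, `M'` is a smaller subgroup which is mapped to `W`. -/
def PropKill.{u, v, w} : Prop := ∀ (C : Type u) [Field C] [CharZero C] [IsAlgClosed C]
  [Algebra.IsAlgebraic ℚ C] (F : Type v) (E : Type w) [Field F] [NumberField F] [Field E]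
  [Algebra F E] [IsGalois F E], SolvablyClosed E → ∀ (U : Subgroup (C ≃ₐ[ℚ] C)),
  IsOpen (U : Set (C ≃ₐ[ℚ] C)) → ∀ (α : U →* (E ≃ₐ[F] E)), Continuous α →
  Function.Surjective α →
  ∀ (M : Subgroup (C ≃ₐ[ℚ] C)) (hM : M.Normal) (hMU : M ≤ U), IsOpen (M : Set (C ≃ₐ[ℚ] C)) →
  ∀ (W : Subgroup (E ≃ₐ[F] E)) [W.Normal], IsOpen (W : Set (E ≃ₐ[F] E)) →
  (∀ w ∈ W, ∃ (h : C ≃ₐ[ℚ] C) (hh : h ∈ M), α ⟨h, hMU hh⟩ = w) →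
  ∀ (M' : Subgroup (C ≃ₐ[ℚ] C)) (hM'M : M' ≤ M), M'.Normal → IsOpen (M' : Set (C ≃ₐ[ℚ] C)) →
  (∀ (h : C ≃ₐ[ℚ] C) (hh : h ∈ M'), α ⟨h, hMU (hM'M hh)⟩ ∈ W) →
  ∀ (p : ℕ) [Fact p.Prime], p ≠ 2 → ∀ (φ : C ≃ₐ[ℚ] C) (f : E ≃ₐ[F] E),
  {q : ℕ | ∃ (O : ValuationSubring C) (V : ValuationSubring E) (φ' : C ≃ₐ[ℚ] C)
    (f' : E ≃ₐ[F] E) (u : HeightOneSpectrum (𝓞 F)), Att α p O V ∧ FrobQ O q φ' ∧
    IsCenter V u ∧ Stab V f' ∧ ActsPow V f' (Ideal.absNorm u.asIdeal) ∧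
    φ⁻¹ * φ' ∈ M' ∧ f⁻¹ * f' ∈ W}.Infinite →
  ∀ (d : ℕ) (hd : φ ^ d ∈ U), 0 < d → (∀ i, 0 < i → i < d → φ ^ i ∉ U) →
  ∀ g ∈ PP α M hM hMU φ d, ∀ x : W →* ℤ_[p]ˣ, Continuous x → ∃ m : ℕ, 0 < m ∧
    ract W (yel (g : (E ≃ₐ[F] E) ⧸ W) (α ⟨φ ^ d, hd⟩ : (E ≃ₐ[F] E) ⧸ W)
      (f : (E ≃ₐ[F] E) ⧸ W) 1) x ^ m = 1

/-- (9) [CHEB] -/
def PropCheb.{u, v} : Prop := ∀ (F : Type u) (N : Type v) [Field F] [NumberField F] [Field N] [NumberField N]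
  [Algebra F N] [IsGalois F N] (γ : N ≃ₐ[F] N),
  {v : HeightOneSpectrum (𝓞 F) | (Ideal.absNorm v.asIdeal).Prime ∧
    ∃ (w : HeightOneSpectrum (𝓞 N)) (k : ℕ), w.asIdeal.under (𝓞 F) = v.asIdeal ∧
      k.Coprime (orderOf γ) ∧ ∀ x : 𝓞 N, (γ ^ k) • x - x ^ Ideal.absNorm v.asIdeal ∈
        w.asIdeal}.Infinite

/-- (9') [CHEB] in the form which is used: a large set of valuation rings with given Frobenius
elements up to exponents; `W` is an open normal subgroup. -/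
def PropCheb'.{u, v} : Prop := ∀ (F : Type u) (E : Type v) [Field F] [NumberField F] [Field E]
  [Algebra F E] [IsGalois F E] (W : Subgroup (E ≃ₐ[F] E)) [W.Normal],
  IsOpen (W : Set (E ≃ₐ[F] E)) → ∀ γ : E ≃ₐ[F] E,
  {q : ℕ | ∃ (V : ValuationSubring E) (u : HeightOneSpectrum (𝓞 F)) (f : E ≃ₐ[F] E) (k : ℕ),
    V ≠ ⊤ ∧ IsCenter V u ∧ q.Prime ∧ Ideal.absNorm u.asIdeal = q ∧ Stab V f ∧ ActsPow V f q ∧
    k.Coprime (orderOf (γ : (E ≃ₐ[F] E) ⧸ W)) ∧ (γ ^ k)⁻¹ * f ∈ W}.Infinite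

/-- (9'') [GEN] for almost all primes `p` there are an open normal subgroup `W'` of `W`, and an
element `γ`, such that `γ` generates the group of the `p`-th roots of unity, and the order of `γ`
modulo `W` is divisible by all primes up to `n`; `W` is contained in a group which does not depend
on `p`. -/
def PropGen.{u, v} : Prop := ∀ (F : Type u) (E : Type v) [Field F] [NumberField F] [Field E]
  [Algebra F E] [IsGalois F E], SolvablyClosed E → ∀ n : ℕ,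
  ∃ W₁ : Subgroup (E ≃ₐ[F] E), W₁.Normal ∧ IsOpen (W₁ : Set (E ≃ₐ[F] E)) ∧
  ∀ (W : Subgroup (E ≃ₐ[F] E)) [W.Normal], IsOpen (W : Set (E ≃ₐ[F] E)) → W ≤ W₁ →
  ∃ B : Set ℕ, B.Finite ∧ ∀ p : ℕ, p.Prime → p ∉ B → ∃ (γ : E ≃ₐ[F] E) (a : ℕ),
    (∀ z : E, z ^ p = 1 → γ z = z ^ a) ∧ orderOf (a : ZMod p) = p - 1 ∧
    ∀ l : ℕ, l.Prime → l ≤ n → l ∣ orderOf (γ : (E ≃ₐ[F] E) ⧸ W)

/-- (10a) [HIT] almost all valuation rings of `E` are attached to a valuation ring of `C`. -/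
def PropHit.{u, v, w} : Prop := ∀ (C : Type u) [Field C] [CharZero C] [IsAlgClosed C]
  [Algebra.IsAlgebraic ℚ C] (F : Type v) (E : Type w) [Field F] [NumberField F] [Field E]
  [Algebra F E] [IsGalois F E], SolvablyClosed E → ∀ (U : Subgroup (C ≃ₐ[ℚ] C)),
  IsOpen (U : Set (C ≃ₐ[ℚ] C)) → ∀ (α : U →* (E ≃ₐ[F] E)), Continuous α →
  Function.Surjective α → ∀ (p : ℕ) [Fact p.Prime], p ≠ 2 → ∀ T : Set ℕ, T.Finite →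
  ∃ T' : Set ℕ, T'.Finite ∧ ∀ V : ValuationSubring E, V ≠ ⊤ → ∀ r : ℕ, r.Prime →
    (r : E) ∈ V.nonunits → r ∉ T' → ∃ O : ValuationSubring C, Att α p O V ∧
      ∀ q : ℕ, q.Prime → (q : C) ∈ O.nonunits → q ∉ T

/-- (10b) [DEG1] the quotient of the cyclotomic characters has finite order as soon as infinitely
many of the valuation rings have degree one. -/
def PropDeg1.{u, v, w} : Prop := ∀ (C : Type u) [Field C] [CharZero C] [IsAlgClosed C]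
  [Algebra.IsAlgebraic ℚ C] (F : Type v) (E : Type w) [Field F] [NumberField F] [Field E]
  [Algebra F E] [IsGalois F E], SolvablyClosed E → ∀ (U : Subgroup (C ≃ₐ[ℚ] C)),
  IsOpen (U : Set (C ≃ₐ[ℚ] C)) → ∀ (α : U →* (E ≃ₐ[F] E)), Continuous α →
  Function.Surjective α → ∀ (p : ℕ) [Fact p.Prime], p ≠ 2 →
  {q : ℕ | ∃ (O : ValuationSubring C) (V : ValuationSubring E) (φ' : C ≃ₐ[ℚ] C),
    Att α p O V ∧ FrobQ O q φ' ∧ φ' ∈ U}.Infinite →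
  ∃ m : ℕ, 0 < m ∧ ∀ g : U,
    chi F E p (α g) ^ m = chi ℚ C p (g : C ≃ₐ[ℚ] C) ^ m

/-- (10) [CASE] -/
def PropCase.{u, v, w} : Prop := ∀ (C : Type u) [Field C] [CharZero C] [IsAlgClosed C]
  [Algebra.IsAlgebraic ℚ C] (F : Type v) (E : Type w) [Field F] [NumberField F] [Field E]
  [Algebra F E] [IsGalois F E], SolvablyClosed E → ∀ (U : Subgroup (C ≃ₐ[ℚ] C)),
  IsOpen (U : Set (C ≃ₐ[ℚ] C)) → ∀ (α : U →* (E ≃ₐ[F] E)), Continuous α →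
  Function.Surjective α →
  (∀ (M : Subgroup (C ≃ₐ[ℚ] C)) (hM : M.Normal) (hMU : M ≤ U), IsOpen (M : Set (C ≃ₐ[ℚ] C)) →
    ∀ φ : C ≃ₐ[ℚ] C, φ ∉ U → ∃ (y : C ≃ₐ[ℚ] C) (hy : y ∈ M), α ⟨y, hMU hy⟩ = 1 ∧
      α ⟨φ * y * φ⁻¹, hMU (hM.conj_mem y hy φ)⟩ ≠ 1) →
  ∃ B : Set ℕ, B.Finite ∧ ∀ (p : ℕ) [Fact p.Prime], p ∉ B → p ≡ 1 [MOD U.index.factorial] →
    ∃ m : ℕ, 0 < m ∧ ∀ g : U, chi F E p (α g) ^ m = chi ℚ C p (g : C ≃ₐ[ℚ] C) ^ m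

/-- (11) [DENSA] -/
def PropDensA.{u} : Prop := ∀ (Z : Type u) [Field Z] [NumberField Z] [IsGalois ℚ Z] (N : ℕ),
  0 < N → (∃ ζ : Z, IsPrimitiveRoot ζ N) → ∀ B : Set ℕ, B.Finite →
  ∃ (T : Set ℕ) (δ : ℝ), T.Finite ∧ 0 < δ ∧
    TR.DensA Z {p : ℕ | p ∉ B ∧ p ≡ 1 [MOD N]} T δ

/-- (12a) [MAX] the theorem for the maximal homomorphisms. -/
def PropMax.{u, v, w} : Prop := ∀ (C : Type u) [Field C] [CharZero C] [IsAlgClosed C]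
  [Algebra.IsAlgebraic ℚ C] (F : Type v) (E : Type w) [Field F] [NumberField F] [Field E]
  [Algebra F E] [IsGalois F E], SolvablyClosed E → ∀ (U : Subgroup (C ≃ₐ[ℚ] C)),
  IsOpen (U : Set (C ≃ₐ[ℚ] C)) → IsTotallyReal (IntermediateField.fixedField U) →
  ∀ (α : U →* (E ≃ₐ[F] E)), Continuous α → Function.Surjective α →
  (∀ (M : Subgroup (C ≃ₐ[ℚ] C)) (hM : M.Normal) (hMU : M ≤ U), IsOpen (M : Set (C ≃ₐ[ℚ] C)) →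
    ∀ φ : C ≃ₐ[ℚ] C, φ ∉ U → ∃ (y : C ≃ₐ[ℚ] C) (hy : y ∈ M), α ⟨y, hMU hy⟩ = 1 ∧
      α ⟨φ * y * φ⁻¹, hMU (hM.conj_mem y hy φ)⟩ ≠ 1) →
  ∃ j : E →+* C, ∀ (g : U) (x : E), (g : C ≃ₐ[ℚ] C) (j x) = j (α g x)

/-- (12b) [ALL] the theorem for all homomorphisms. -/
def PropAll.{u, v, w, x} : Prop := ∀ (F₁ : Type w) (E₁ : Type u) (F₂ : Type x) (E₂ : Type v)
  [Field F₁] [NumberField F₁] [IsTotallyReal F₁] [Field E₁] [Algebra F₁ E₁]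
  [IsGalois F₁ E₁] [Field F₂] [NumberField F₂] [Field E₂] [Algebra F₂ E₂] [IsGalois F₂ E₂],
  SolvablyClosed E₁ → SolvablyClosed E₂ → ∀ α : (E₁ ≃ₐ[F₁] E₁) →* (E₂ ≃ₐ[F₂] E₂),
  Continuous α → IsOpen (Set.range α) →
  ∃ j : E₂ →+* E₁, ∀ (g : E₁ ≃ₐ[F₁] E₁) (x : E₂), g (j x) = j ((α g) x)

/-- (13) [PNE] -/
def PropPne.{u, v, w} : Prop := ∀ (C : Type u) [Field C] [CharZero C] [IsAlgClosed C]
  [Algebra.IsAlgebraic ℚ C] (F : Type v) (E : Type w) [Field F] [NumberField F] [Field E]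
  [Algebra F E] [IsGalois F E], SolvablyClosed E → ∀ (U : Subgroup (C ≃ₐ[ℚ] C)),
  IsOpen (U : Set (C ≃ₐ[ℚ] C)) → ∀ (α : U →* (E ≃ₐ[F] E)), Continuous α →
  Function.Surjective α →
  ∀ (M : Subgroup (C ≃ₐ[ℚ] C)) (hM : M.Normal) (hMU : M ≤ U), IsOpen (M : Set (C ≃ₐ[ℚ] C)) →
  (∀ φ : C ≃ₐ[ℚ] C, φ ∉ U → ∃ (y : C ≃ₐ[ℚ] C) (hy : y ∈ M), α ⟨y, hMU hy⟩ = 1 ∧
      α ⟨φ * y * φ⁻¹, hMU (hM.conj_mem y hy φ)⟩ ≠ 1) →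
  IsOpen ((M.subgroupOf U).map α : Set (E ≃ₐ[F] E)) ∧
  ∀ (φ : C ≃ₐ[ℚ] C) (d : ℕ), (∀ i, 0 < i → i < d → φ ^ i ∉ U) →
    PP α M hM hMU φ d ≠ ⊥ ∧
    (∀ (h : C ≃ₐ[ℚ] C) (hh : h ∈ M), ∀ a ∈ PP α M hM hMU φ d,
      α ⟨h, hMU hh⟩ * a * (α ⟨h, hMU hh⟩)⁻¹ ∈ PP α M hM hMU φ d) ∧
    ∀ φ' : C ≃ₐ[ℚ] C, φ⁻¹ * φ' ∈ M → PP α M hM hMU φ' d = PP α M hM hMU φ d

end Vale.Agent.P024.Q1
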